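import Vale.Agent.P309.Induct

/-!
Memory-sample lower bound for noiseless Gaussian linear regression.
-/

noncomputable section

open MeasureTheory ProbabilityTheory Finset
open scoped RealInnerProductSpace ENNReal NNReal

namespace Vale.Agent.Results.P309.MemorySampleLowerBound

open Vale.Agent.P309

theorem log_le_self_sub_one {x : ℝ} (hx : 0 < x) : Real.log x ≤ x - 1 :=
  Real.log_le_sub_one_of_pos hx

theorem log24_le : Real.log 24 ≤ 4 := by
  rw [Real.log_le_iff_le_exp (by norm_num)]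
  have h := Real.exp_one_gt_d9
  have : Real.exp 4 = Real.exp 1 ^ 4 := by rw [← Real.exp_nat_mul]; norm_num
  rw [this]
  have h2 : (2.7 : ℝ) ^ 4 ≤ Real.exp 1 ^ 4 := pow_le_pow_left₀ (by norm_num) (by linarith) 4
  norm_num at h2
  linarith

theorem gain_le {d : ℕ} (hd : 256 ≤ d) (M : ℕ) :
    gain d ((d / 32 + 1) * 2 ^ M) ≤ 18 * ((d : ℝ) + M / d) := by
  have hd' : (256 : ℝ) ≤ d := by exact_mod_cast hd
  have hl2 : Real.log 2 ≤ 1 := by linarith [log_le_self_sub_one (show (0 : ℝ) < 2 by norm_num)]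
  have hl2' : 0 ≤ Real.log 2 := Real.log_nonneg one_le_two
  set k := d / 32 with hk
  have hk32 : 32 * (k : ℝ) ≤ d := by
    have : 32 * k ≤ d := Nat.mul_div_le d 32
    exact_mod_cast this
  have hsum : ((2 * k + d / 4 + 5 * (d / 8) + 2 : ℕ) : ℝ) ≤ d := by
    exact_mod_cast (show 2 * k + d / 4 + 5 * (d / 8) + 2 ≤ d by omega)
  have hW : Real.log (windowConst d k) ≤ 2 * d + 2 * k := by
    have hs : Real.log (√(2 * Real.pi)) ≤ 2 := by
      rw [Real.log_sqrt (by positivity)]
      have := log_le_self_sub_one (show (0 : ℝ) < 2 * Real.pi / 4 by positivity)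
      have hl4 : Real.log (2 * Real.pi / 4) = Real.log (2 * Real.pi) - Real.log 4 :=
        Real.log_div (by positivity) (by norm_num)
      have h4 : Real.log 4 = 2 * Real.log 2 := by
        rw [show (4 : ℝ) = 2 ^ 2 by norm_num, Real.log_pow]; norm_num
      have := Real.pi_le_four
      linarith
    rw [windowConst, Real.log_mul (by positivity) (by positivity), Real.log_exp, Real.log_pow]
    nlinarith [mul_le_mul_of_nonneg_left hs (Nat.cast_nonneg (α := ℝ) k)]
  have hpc : phaseConst d k (d / 8) (d / 4) ≤ 6 * d := by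
    rw [phaseConst]
    nlinarith [mul_le_mul hsum hl2 hl2' (by linarith)]
  have hc : 2 / (((d / 8 : ℕ) : ℝ) + 1) + Real.exp (-(d : ℝ)) * 2 ^ k ≤ 18 / d := by
    have h1 : (d : ℝ) ≤ 8 * (((d / 8 : ℕ) : ℝ) + 1) := by
      exact_mod_cast (show d ≤ 8 * (d / 8 + 1) by omega)
    have h2 : 2 / (((d / 8 : ℕ) : ℝ) + 1) ≤ 16 / d := by
      rw [div_le_div_iff₀ (by positivity) (by positivity)]; linarith
    have h3 : Real.exp (-(d : ℝ)) * 2 ^ k ≤ 2 / d := by
      calc Real.exp (-(d : ℝ)) * 2 ^ k ≤ Real.exp (-(d : ℝ)) * Real.exp 1 ^ k := by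
            gcongr
            linarith [Real.add_one_le_exp (1 : ℝ)]
        _ = Real.exp (-((d : ℝ) - k)) := by
            rw [← Real.exp_nat_mul, ← Real.exp_add]; ring_nf
        _ ≤ ((d : ℝ) - k + 1)⁻¹ := by
            rw [Real.exp_neg]
            exact inv_anti₀ (by linarith) (Real.add_one_le_exp _)
        _ ≤ 2 / d := by
            rw [inv_eq_one_div, div_le_div_iff₀ (by linarith) (by positivity)]
            linarith
    have : (16 : ℝ) / d + 2 / d = 18 / d := by ring
    linarith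
  have hlogK : Real.log (((k + 1) * 2 ^ M : ℕ) : ℝ) ≤ d + M := by
    push_cast
    rw [Real.log_mul (by positivity) (by positivity), Real.log_pow]
    have := log_le_self_sub_one (show (0 : ℝ) < (k : ℝ) + 1 by positivity)
    nlinarith [mul_le_mul_of_nonneg_left hl2 (Nat.cast_nonneg (α := ℝ) M)]
  have hlog0 : 0 ≤ Real.log (((k + 1) * 2 ^ M : ℕ) : ℝ) := by
    refine Real.log_nonneg ?_
    exact_mod_cast Nat.one_le_iff_ne_zero.2 (by positivity)
  have hprod := mul_le_mul hc hlogK hlog0 (by positivity)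
  have e : 18 / (d : ℝ) * (d + M) = 18 + 18 * (M / d) := by field_simp
  rw [e] at hprod
  rw [gain, ← hk]
  have h5 : 5 * (d : ℝ) * Real.log 2 ≤ 5 * d := mul_le_of_le_one_right (by linarith) hl2
  linarith

/-- Every learner with `2^M` states succeeding with probability `2/3` needs
`(T + d)(1 + M/d^2) ≥ c d log(1/ε)`. -/
theorem tradeoff {d M T : ℕ} (hd : 256 ≤ d) {ε : ℝ} (hε : 0 < ε) (hε0 : ε ≤ Real.exp (-240))
    (L : Learner d (2 ^ M)) (hs : 2 / 3 ≤ successProb L T ε) :
    1 / 60000 * (d : ℝ) * Real.log (1 / ε) ≤ ((T : ℝ) + d) * (1 + (M : ℝ) / d ^ 2) := by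
  set l := Real.log (1 / ε) with hl
  have hd' : (256 : ℝ) ≤ d := by exact_mod_cast hd
  have hl240 : 240 ≤ l := by
    rw [hl, one_div, Real.log_inv]
    have := Real.log_le_log hε hε0
    rw [Real.log_exp] at this
    linarith
  set Lam := (1 / (24 * ε)) ^ (d - 1) / 10 with hLam
  have h24 := log24_le
  have h24' : 0 ≤ Real.log 24 := Real.log_nonneg (by norm_num)
  have h10 : Real.log 10 ≤ 4 := le_trans (Real.log_le_log (by norm_num) (by norm_num)) h24
  have hD0 : (d : ℝ) / 2 ≤ ((d - 1 : ℕ) : ℝ) := by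
    rw [Nat.cast_sub (by omega)]; push_cast; linarith
  have hD0' : ((d - 1 : ℕ) : ℝ) ≤ d := by exact_mod_cast Nat.sub_le d 1
  have hlogLam : Real.log Lam = ((d - 1 : ℕ) : ℝ) * (l - Real.log 24) - Real.log 10 := by
    rw [hLam, Real.log_div (by positivity) (by norm_num), Real.log_pow]
    congr 2
    rw [hl, one_div, one_div, Real.log_inv, Real.log_inv,
      Real.log_mul (by norm_num) hε.ne']
    ring
  have hLam1 : 1 ≤ Lam := by
    rw [← Real.log_nonneg_iff (by positivity), hlogLam]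
    nlinarith
  have hlog110 : Real.log (1 / 10) = -Real.log 10 := by rw [one_div, Real.log_inv]
  have hθge : (d : ℝ) * l / 20 ≤ theta d Lam (1 / 10) := by
    rw [theta, baseOffset, hlogLam, hlog110]
    nlinarith [mul_le_mul_of_nonneg_right hD0 (show (0 : ℝ) ≤ l by linarith),
      mul_le_mul hD0' h24 h24' (by linarith)]
  have hθ : 0 < theta d Lam (1 / 10) := lt_of_lt_of_le (by positivity) hθge
  set k := d / 32 with hk
  have hk1 : 1 ≤ k := by omega
  set P := T / k + 1 with hP
  have hPk : T ≤ P * k := by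
    have := Nat.lt_mul_div_succ T hk1
    rw [hP, mul_comm]; omega
  set f0 : Vec d → ℝ := (Metric.closedBall 0 1).indicator 1 with hf0
  have hnode : Node f0 0 0 := by
    refine ⟨measurable_one.indicator measurableSet_closedBall,
      Set.indicator_nonneg fun _ _ => zero_le_one,
      Set.indicator_le' (fun _ _ => le_rfl) (fun _ _ => zero_le_one), fun s hs => ?_⟩
    have := Set.mem_of_indicator_ne_zero hs
    simpa [dist_eq_norm] using this
  have hae : ∀ᵐ s ∂sphereUniform d, f0 s = 1 := by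
    filter_upwards [ae_unit (show 2 ≤ d by omega)] with s hs
    rw [hf0, Set.indicator_of_mem (by simp [hs]), Pi.one_apply]
  have hmass : mass f0 = 1 := by
    rw [mass, integral_congr_ae hae]; simp
  have hpot : pot (d / 4) f0 0 = 0 := by
    have h : ∫ s, f0 s * Real.log (f0 s) ∂sphereUniform d = 0 :=
      integral_eq_zero_of_ae (hae.mono fun s hs => by simp [hs])
    simp [pot, ent, h, hmass]
  set B := ((P : ℝ) * gain d ((k + 1) * 2 ^ M) + baseOffset d) / theta d Lam (1 / 10) + 2 / 10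
    with hB
  have hbad : Lam * (2 * (12 * ε) ^ (d - 1)) ≤ 1 / 10 := by
    have h1 : 2 * (12 * ε) ^ (d - 1) ≤ (24 * ε) ^ (d - 1) := by
      rw [show (24 : ℝ) * ε = 2 * (12 * ε) by ring, mul_pow 2]
      exact mul_le_mul_of_nonneg_right (le_self_pow₀ one_le_two (by omega)) (by positivity)
    refine (mul_le_mul_of_nonneg_left h1 (by linarith)).trans (le_of_eq ?_)
    rw [hLam, one_div, inv_pow]
    field_simp
  have hper : ∀ w : Fin (2 ^ M), ∫ s, successFrom L ε T 0 w s ∂sphereUniform d ≤ B := by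
    intro w
    have h := success_le hd L T hε hLam1 (by norm_num : (0 : ℝ) < 1 / 10) (by norm_num) hθ
      P 0 (.inl w) f0 0 0 hnode
    rw [← hk, hmass, hpot] at h
    have e : ∫ s, f0 s * padSuccess L T ε (P * k) 0 (.inl w) s ∂sphereUniform d =
        ∫ s, successFrom L ε T 0 w s ∂sphereUniform d := by
      refine integral_congr_ae (hae.mono fun s hs => ?_)
      simp only [hs, one_mul]
      rw [padSuccess_running L T ε s (P * k) 0 w bot_le (by omega), Nat.sub_zero]
    rw [e] at h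
    refine h.trans ?_
    rw [hB, zero_add, mul_one, mul_one, inv_mul_eq_div]
    linarith
  have hint : ∀ w : Fin (2 ^ M),
      Integrable (fun s => successFrom L ε T 0 w s) (sphereUniform d) := by
    intro w
    have e : (fun s => successFrom L ε T 0 w s) =
        fun s => padSuccess L T ε (P * k) 0 (.inl w) s := by
      funext s
      rw [padSuccess_running L T ε s (P * k) 0 w bot_le (by omega), Nat.sub_zero]
    rw [e]
    obtain ⟨h1, h2⟩ := padSuccess_props L T ε (P * k) 0 (.inl w : PadState (2 ^ M) T)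
    exact bdd_integrable h1 fun s => by rw [abs_of_nonneg (h2 s).1]; exact (h2 s).2
  have hsB : successProb L T ε ≤ B := by
    rw [successProb, integral_finsetSum _ fun w _ => (hint w).const_mul _]
    simp_rw [integral_const_mul]
    calc ∑ w, L.init w * ∫ s, successFrom L ε T 0 w s ∂sphereUniform d
        ≤ ∑ w, L.init w * B :=
          Finset.sum_le_sum fun w _ => mul_le_mul_of_nonneg_left (hper w) (L.init_nonneg w)
      _ = B := by rw [← Finset.sum_mul, L.init_sum, one_mul]
  have hgain := gain_le hd M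
  rw [← hk] at hgain
  have hPd : (P : ℝ) * d ≤ 64 * ((T : ℝ) + d) := by
    have h1 : P * k ≤ T + k := by
      rw [hP, add_mul, one_mul]; exact Nat.add_le_add_right (Nat.div_mul_le_self T k) k
    have h2 : d ≤ 64 * k := by omega
    have h3 : P * d ≤ 64 * (T + d) := by
      calc P * d ≤ P * (64 * k) := Nat.mul_le_mul_left P h2
        _ = 64 * (P * k) := by ring
        _ ≤ 64 * (T + k) := by omega
        _ ≤ 64 * (T + d) := by omega
    exact_mod_cast h3
  have hPG : (P : ℝ) * gain d ((k + 1) * 2 ^ M) + baseOffset d ≤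
      1157 * (((T : ℝ) + d) * (1 + (M : ℝ) / d ^ 2)) := by
    have h1 : (P : ℝ) * gain d ((k + 1) * 2 ^ M) ≤
        18 * ((P : ℝ) * d) * (1 + (M : ℝ) / d ^ 2) := by
      refine (mul_le_mul_of_nonneg_left hgain (Nat.cast_nonneg P)).trans (le_of_eq ?_)
      field_simp
    have h2 : 18 * ((P : ℝ) * d) * (1 + (M : ℝ) / d ^ 2) ≤
        18 * (64 * ((T : ℝ) + d)) * (1 + (M : ℝ) / d ^ 2) := by gcongr
    have h3 : baseOffset d ≤ 5 * d := by
      rw [baseOffset]; nlinarith [mul_le_mul hD0' h24 h24' (by linarith)]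
    have h4 : (d : ℝ) ≤ ((T : ℝ) + d) * (1 + (M : ℝ) / d ^ 2) := by
      have : (d : ℝ) ≤ (T : ℝ) + d := le_add_of_nonneg_left (Nat.cast_nonneg T)
      exact this.trans (le_mul_of_one_le_right (by positivity) (le_add_of_nonneg_right (by positivity)))
    linarith
  have h15 : theta d Lam (1 / 10) * (7 / 15) ≤
      (P : ℝ) * gain d ((k + 1) * 2 ^ M) + baseOffset d := by
    have : (7 : ℝ) / 15 ≤
        ((P : ℝ) * gain d ((k + 1) * 2 ^ M) + baseOffset d) / theta d Lam (1 / 10) := by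
      rw [hB] at hsB; linarith
    rw [le_div_iff₀ hθ] at this
    linarith
  have h20 : (d : ℝ) * l / 20 * (7 / 15) ≤
      1157 * (((T : ℝ) + d) * (1 + (M : ℝ) / d ^ 2)) := by
    have := mul_le_mul_of_nonneg_right hθge (show (0 : ℝ) ≤ 7 / 15 by norm_num)
    linarith
  have hnn : 0 ≤ (d : ℝ) * l := by positivity
  linarith

/-- For every constant `C`, learners with at most `C d^2` bits that succeed with probability
`2/3` at accuracy `ε` use at least `c d log(1/ε)` samples, for all small `ε` and all large `d`;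
in general `(T + d)(1 + M/d^2) ≥ c d log(1/ε)`. -/
theorem result :
    (∀ C : ℝ, 0 < C → ∃ c : ℝ, 0 < c ∧ ∃ ε₀ : ℝ, 0 < ε₀ ∧ ∃ d₀ : ℕ, ∀ d : ℕ, d₀ ≤ d →
      ∀ ε : ℝ, 0 < ε → ε ≤ ε₀ → ∀ M T : ℕ, (M : ℝ) ≤ C * (d : ℝ) ^ 2 →
        ∀ L : Vale.Agent.P309.Learner d (2 ^ M),
          2 / 3 ≤ Vale.Agent.P309.successProb L T ε →
            c * (d : ℝ) * Real.log (1 / ε) ≤ (T : ℝ)) ∧
    (∃ c : ℝ, 0 < c ∧ ∃ ε₀ : ℝ, 0 < ε₀ ∧ ∃ d₀ : ℕ, ∀ d : ℕ, d₀ ≤ d →
      ∀ ε : ℝ, 0 < ε → ε ≤ ε₀ → ∀ M T : ℕ,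
        ∀ L : Vale.Agent.P309.Learner d (2 ^ M),
          2 / 3 ≤ Vale.Agent.P309.successProb L T ε →
            c * (d : ℝ) * Real.log (1 / ε) ≤ ((T : ℝ) + d) * (1 + (M : ℝ) / (d : ℝ) ^ 2)) := by
  refine ⟨fun C hC => ?_, ⟨1 / 60000, by norm_num, Real.exp (-240), Real.exp_pos _, 256,
    fun d hd ε hε hε0 M T L hs => tradeoff hd hε hε0 L hs⟩⟩
  refine ⟨1 / (120000 * (1 + C)), by positivity,
    min (Real.exp (-240)) (Real.exp (-(120000 * (1 + C)))), lt_min (Real.exp_pos _) (Real.exp_pos _),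
    256, fun d hd ε hε hε0 M T hM L hs => ?_⟩
  have h := tradeoff hd hε (hε0.trans (min_le_left _ _)) L hs
  have hl : 120000 * (1 + C) ≤ Real.log (1 / ε) := by
    rw [one_div, Real.log_inv]
    have := Real.log_le_log hε (hε0.trans (min_le_right _ _))
    rw [Real.log_exp] at this
    linarith
  have hdpos : (0 : ℝ) < d := by exact_mod_cast (show 0 < d by omega)
  have hMd : 1 + (M : ℝ) / (d : ℝ) ^ 2 ≤ 1 + C := by
    gcongr
    rw [div_le_iff₀ (by positivity)]
    exact hM
  have h2 : 1 / 60000 * (d : ℝ) * Real.log (1 / ε) ≤ ((T : ℝ) + d) * (1 + C) :=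
    h.trans (mul_le_mul_of_nonneg_left hMd (by positivity))
  have h3 := mul_le_mul_of_nonneg_left hl hdpos.le
  rw [div_mul_eq_mul_div, div_mul_eq_mul_div, div_le_iff₀ (by positivity)]
  nlinarith

end Vale.Agent.Results.P309.MemorySampleLowerBound
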